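import Vale.Agent.P317Z.Defs
import Vale.Agent.P317Z.Fin

namespace Vale.Agent.Results.P317.AOracleMachine

open Vale.Agent.P317Z

/-- There is a probabilistic oracle Turing machine which is a fully polynomial randomised
approximation scheme for the number of common bases of two matroids of equal rank. -/
theorem result : ∃ (M : Machine) (d : ℕ), ∀ (n : ℕ) (M₁ M₂ : Matroid (Fin n)),
    M₁.E = Set.univ → M₂.E = Set.univ → M₁.eRank = M₂.eRank →
    ∀ ε δ : ℚ, 0 < ε → ε < 1 → 0 < δ → δ < 1 → ∀ (N T : ℕ) (m : ℝ),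
      N = Nat.card {B : Set (Fin n) // M₁.IsBase B ∧ M₂.IsBase B} →
      m = n + 1 / (ε : ℝ) + Real.logb 2 (1 / (δ : ℝ)) + 2 →
      (m + Real.logb 2 (ε.num * δ.num)) ^ d ≤ T →
      (∀ ρ : Fin T → Bool,
        (M.run (oracle M₁ M₂) (M.first (code n ε δ)) (List.ofFn ρ)).l = none ∧
        (M.calls (oracle M₁ M₂) (M.first (code n ε δ)) (List.ofFn ρ) : ℝ) ≤ m ^ d) ∧
      (1 - δ : ℝ) * 2 ^ T ≤ Nat.card {ρ : Fin T → Bool // ∃ a : ℕ,
        (M.run (oracle M₁ M₂) (M.first (code n ε δ)) (List.ofFn ρ)).stk 0 = a.bits ∧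
        (1 - ε : ℝ) * N ≤ a ∧ (a : ℝ) ≤ (1 + ε) * N} := by
  obtain ⟨M, c, H⟩ := exists_fpras
  refine ⟨M, 485 * (c + 1), ?_⟩
  intro n M₁ M₂ _ _ hr ε δ h1 h2 h3 h4 N T m hN hm hT
  obtain ⟨out, h5, h6⟩ := H n M₁ M₂ hr (inp n ε δ) rfl
  obtain ⟨b1, b2⟩ := bounds h1 h2 h3 h4 c hm
  have b3 := Nat.cast_le.1 (b2.trans hT)
  rw [code_eq]
  constructor
  · intro ρ
    have h7 := h6 (fun _ => True) (fun d => d.l = none) fun d hd => iff_true_intro hd
    have h8 := h7.2 T b3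
    rw [frq_const, ind, if_pos trivial] at h8
    exact ⟨all_of_frq h8 ρ, (Nat.cast_le.2 (h7.1 _)).trans b1⟩
  · have h7 := (h6 (fun w => ∃ a : ℕ, w = a.bits ∧ (1 - ε : ℝ) * N ≤ a ∧ (a : ℝ) ≤ (1 + ε) * N)
      _ fun d _ => Iff.rfl).2 T b3
    rw [frq_eq T fun ρ => ∃ a : ℕ, (M.run (oracle M₁ M₂)
      (M.first (Vale.Agent.Lib.PolyTime.enc (inp n ε δ))) ρ).stk 0 = a.bits ∧
        (1 - ε : ℝ) * N ≤ a ∧ (a : ℝ) ≤ (1 + ε) * N, h7]
    refine mul_le_mul_of_nonneg_right (le_trans ?_ (h5.trans (frq_mono fun ρ h => ?_)))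
      (by positivity)
    · have := lP_ok (n := n) (ε := ε) h3
      linarith
    · have h8 := mul_le_mul_of_nonneg_left (eP_ok (n := n) (δ := δ) h1) (Nat.cast_nonneg N)
      rw [mul_one_div] at h8
      rw [show Vale.Agent.P317.T.numCommon M₁ M₂ = N from hN.symm, abs_le] at h
      exact ⟨_, rfl, by linarith [h.1], by linarith [h.2]⟩

end Vale.Agent.Results.P317.AOracleMachine
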